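import Mathlib

/-!
# P116, full Koebe, block [45]: slices of the planar set of the dust

`Bx A a b a' b'` : union of the boxes `[a x, b x] × [a' x, b' x]`, `x ∈ A`. If `A` is the complement
of countably many closed sets `c j` whose boxes have summable areas, and if almost every vertical
slice of `Bx A` is null, then `Bx A` is null.
-/

open MeasureTheory Set Filter Topology
open scoped ENNReal

namespace Vale.Agent.P116.KF.H597

variable {X : Type*}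

/-- union of the boxes over `A` -/
def Bx (A : Set X) (a b a' b' : X → ℝ) : Set (ℝ × ℝ) :=
  {p | ∃ x ∈ A, a x ≤ p.1 ∧ p.1 ≤ b x ∧ a' x ≤ p.2 ∧ p.2 ≤ b' x}

variable {a b a' b' : X → ℝ}

theorem Bx_mono {A B : Set X} (h : A ⊆ B) : Bx A a b a' b' ⊆ Bx B a b a' b' :=
  fun _ ⟨x, hx, h'⟩ => ⟨x, h hx, h'⟩

theorem Bx_iUnion {ι : Type*} (A : ι → Set X) :
    Bx (⋃ i, A i) a b a' b' = ⋃ i, Bx (A i) a b a' b' := by
  ext p
  simp only [Bx, mem_iUnion, mem_ofPred_eq]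
  constructor
  · rintro ⟨x, ⟨i, hi⟩, h⟩
    exact ⟨i, x, hi, h⟩
  · rintro ⟨i, x, hi, h⟩
    exact ⟨x, ⟨i, hi⟩, h⟩

section top

variable [TopologicalSpace X]

theorem closed_set (ha : LowerSemicontinuous a) (hb : UpperSemicontinuous b)
    (ha' : LowerSemicontinuous a') (hb' : UpperSemicontinuous b') :
    IsClosed {w : X × (ℝ × ℝ) | a w.1 ≤ w.2.1 ∧ w.2.1 ≤ b w.1 ∧ a' w.1 ≤ w.2.2 ∧ w.2.2 ≤ b' w.1} := by
  have h1 : IsClosed {w : X × (ℝ × ℝ) | a w.1 ≤ w.2.1} :=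
    ha.isClosed_epigraph.preimage (f := fun w : X × (ℝ × ℝ) => (w.1, w.2.1)) (by fun_prop)
  have h2 : IsClosed {w : X × (ℝ × ℝ) | w.2.1 ≤ b w.1} :=
    (upperSemicontinuous_iff_IsClosed_hypograph.1 hb).preimage (f := fun w : X × (ℝ × ℝ) => (w.1, w.2.1)) (by fun_prop)
  have h3 : IsClosed {w : X × (ℝ × ℝ) | a' w.1 ≤ w.2.2} :=
    ha'.isClosed_epigraph.preimage (f := fun w : X × (ℝ × ℝ) => (w.1, w.2.2)) (by fun_prop)
  have h4 : IsClosed {w : X × (ℝ × ℝ) | w.2.2 ≤ b' w.1} :=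
    (upperSemicontinuous_iff_IsClosed_hypograph.1 hb').preimage (f := fun w : X × (ℝ × ℝ) => (w.1, w.2.2)) (by fun_prop)
  exact h1.inter (h2.inter (h3.inter h4))

theorem Bx_closed [CompactSpace X] (ha : LowerSemicontinuous a) (hb : UpperSemicontinuous b)
    (ha' : LowerSemicontinuous a') (hb' : UpperSemicontinuous b') {A : Set X} (hA : IsClosed A) :
    IsClosed (Bx A a b a' b') := by
  have h : Bx A a b a' b' = Prod.snd '' ((Prod.fst ⁻¹' A) ∩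
      {w : X × (ℝ × ℝ) | a w.1 ≤ w.2.1 ∧ w.2.1 ≤ b w.1 ∧ a' w.1 ≤ w.2.2 ∧ w.2.2 ≤ b' w.1}) := by
    ext p
    constructor
    · rintro ⟨x, hx, h⟩
      exact ⟨(x, p), ⟨hx, h⟩, rfl⟩
    · rintro ⟨⟨x, q⟩, ⟨hx, h⟩, rfl⟩
      exact ⟨x, hx, h⟩
  rw [h]
  exact isClosedMap_snd_of_compactSpace _
    ((hA.preimage continuous_fst).inter (closed_set ha hb ha' hb'))

end top

theorem Bx_meas_open [MetricSpace X] [CompactSpace X] (ha : LowerSemicontinuous a)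
    (hb : UpperSemicontinuous b) (ha' : LowerSemicontinuous a') (hb' : UpperSemicontinuous b')
    {A : Set X} (hA : IsOpen A) : MeasurableSet (Bx A a b a' b') := by
  obtain ⟨F, hF, -, hU, -⟩ := hA.exists_iUnion_isClosed
  rw [← hU, Bx_iUnion]
  exact MeasurableSet.iUnion fun n => (Bx_closed ha hb ha' hb' (hF n)).measurableSet

/-- the dust of the first `N` massive ends removed -/
def Au (c : ℕ → Set X) (N : ℕ) : Set X := (⋃ j ∈ Finset.range N, c j)ᶜ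

theorem isOpen_Au [TopologicalSpace X] {c : ℕ → Set X} (hc : ∀ j, IsClosed (c j)) (N : ℕ) :
    IsOpen (Au c N) :=
  (isClosed_biUnion_finset fun j _ => hc j).isOpen_compl

/-- the dust -/
def Ad (c : ℕ → Set X) : Set X := (⋃ j, c j)ᶜ

theorem Ad_sub (c : ℕ → Set X) (N : ℕ) : Ad c ⊆ Au c N := by
  refine compl_subset_compl.2 ?_
  refine iUnion₂_subset fun j _ => subset_iUnion c j

/-- points of all the sets `Bx (Au c N)` are in `Bx (Ad c)` or in infinitely many boxes -/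
theorem inter_sub (c : ℕ → Set X) {B : ℕ → Set (ℝ × ℝ)}
    (hB : ∀ j, ∀ x ∈ c j, ∀ p : ℝ × ℝ, a x ≤ p.1 → p.1 ≤ b x → a' x ≤ p.2 → p.2 ≤ b' x → p ∈ B j)
    {p : ℝ × ℝ} (h : ∀ N, p ∈ Bx (Au c N) a b a' b') (hp : ∀ᶠ j in atTop, p ∉ B j) :
    p ∈ Bx (Ad c) a b a' b' := by
  obtain ⟨N, hN⟩ := eventually_atTop.1 hp
  obtain ⟨x, hx, h1, h2, h3, h4⟩ := h N
  refine ⟨x, ?_, h1, h2, h3, h4⟩
  intro hx'
  obtain ⟨j, hj⟩ := mem_iUnion.1 hx'
  by_cases hjN : j < N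
  · exact hx (mem_biUnion (Finset.mem_coe.2 (Finset.mem_range.2 hjN)) hj)
  · exact hN j (not_lt.1 hjN) (hB j x hj p h1 h2 h3 h4)

/-- **slices** -/
theorem fub [MetricSpace X] [CompactSpace X] (ha : LowerSemicontinuous a)
    (hb : UpperSemicontinuous b) (ha' : LowerSemicontinuous a') (hb' : UpperSemicontinuous b')
    {c : ℕ → Set X} (hc : ∀ j, IsClosed (c j)) {B : ℕ → Set (ℝ × ℝ)}
    (hB : ∀ j, ∀ x ∈ c j, ∀ p : ℝ × ℝ, a x ≤ p.1 → p.1 ≤ b x → a' x ≤ p.2 → p.2 ≤ b' x → p ∈ B j)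
    (hBs : ∑' j, volume (B j) ≠ ∞)
    (hs : ∀ᵐ s : ℝ, volume {s' : ℝ | (s, s') ∈ Bx (Ad c) a b a' b'} = 0) :
    volume (Bx (Ad c) a b a' b') = 0 := by
  set D : Set (ℝ × ℝ) := ⋂ N, Bx (Au c N) a b a' b' with hD
  have hDm : MeasurableSet D := MeasurableSet.iInter fun N => Bx_meas_open ha hb ha' hb'
    (isOpen_Au hc N)
  have hsub : Bx (Ad c) a b a' b' ⊆ D := subset_iInter fun N => Bx_mono (Ad_sub c N)
  refine measure_mono_null hsub ?_
  have hBC : ∀ᵐ p : ℝ × ℝ, ∀ᶠ j in atTop, p ∉ B j := ae_eventually_notMem hBs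
  rw [Measure.volume_eq_prod] at hBC ⊢
  have hBC' := Measure.ae_ae_of_ae_prod hBC
  rw [Measure.measure_prod_null hDm]
  filter_upwards [hs, hBC'] with s h1 h2
  refine measure_mono_null (t := {s' : ℝ | (s, s') ∈ Bx (Ad c) a b a' b'} ∪
    {s' : ℝ | ¬ ∀ᶠ j in atTop, (s, s') ∉ B j}) ?_ ?_
  · intro s' hs'
    by_cases h3 : ∀ᶠ j in atTop, (s, s') ∉ B j
    · exact Or.inl (inter_sub c hB (fun N => mem_iInter.1 hs' N) h3)
    · exact Or.inr h3
  · rw [measure_union_null_iff]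
    exact ⟨h1, h2⟩

/-- the slices are null if they are covered by sets of small total length -/
theorem fub_cover [MetricSpace X] [CompactSpace X] (ha : LowerSemicontinuous a)
    (hb : UpperSemicontinuous b) (ha' : LowerSemicontinuous a') (hb' : UpperSemicontinuous b')
    {c : ℕ → Set X} (hc : ∀ j, IsClosed (c j)) {B : ℕ → Set (ℝ × ℝ)}
    (hB : ∀ j, ∀ x ∈ c j, ∀ p : ℝ × ℝ, a x ≤ p.1 → p.1 ≤ b x → a' x ≤ p.2 → p.2 ≤ b' x → p ∈ B j)
    (hBs : ∑' j, volume (B j) ≠ ∞)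
    (hs : ∀ᵐ s : ℝ, ∀ ε : ℝ≥0∞, 0 < ε → ∃ I : ℕ → Set ℝ,
      {s' : ℝ | (s, s') ∈ Bx (Ad c) a b a' b'} ⊆ ⋃ i, I i ∧ ∑' i, volume (I i) ≤ ε) :
    volume (Bx (Ad c) a b a' b') = 0 := by
  refine fub ha hb ha' hb' hc hB hBs ?_
  filter_upwards [hs] with s h
  refine le_antisymm (ENNReal.le_of_forall_pos_le_add fun ε hε _ => ?_) bot_le
  obtain ⟨I, h1, h2⟩ := h ε (by exact_mod_cast hε)
  calc volume {s' : ℝ | (s, s') ∈ Bx (Ad c) a b a' b'} ≤ volume (⋃ i, I i) := measure_mono h1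
    _ ≤ ∑' i, volume (I i) := measure_iUnion_le _
    _ ≤ 0 + ε := by rw [zero_add]; exact h2

/-- **grid points off the dust**: if `p` is in no box of the dust and in the boxes of only finitely
many of the `c j`, `j ≥ N`, it has an `N'` such that `p` is in no box of `Au c N'`. -/
theorem grid_pt (c : ℕ → Set X) {B : ℕ → Set (ℝ × ℝ)}
    (hB : ∀ j, ∀ x ∈ c j, ∀ p : ℝ × ℝ, a x ≤ p.1 → p.1 ≤ b x → a' x ≤ p.2 → p.2 ≤ b' x → p ∈ B j)
    {p : ℝ × ℝ} (hp : ∀ᶠ j in atTop, p ∉ B j) (hd : p ∉ Bx (Ad c) a b a' b') :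
    ∃ N, p ∉ Bx (Au c N) a b a' b' := by
  by_contra hcon
  push Not at hcon
  exact hd (inter_sub c hB hcon hp)

/-- **compactness**: nodes. `F` closed, `p` in no box over `F`; then for every family `Nd l` of
covers with `lo`, `hi` functions of the nodes which increase / decrease to `a`, `b`: no node of a
late level which meets `F` has `p` in its box. -/
theorem grid_node [TopologicalSpace X] [CompactSpace X] {F : Set X} (hF : IsClosed F)
    {lo hi lo' hi' : ℕ → X → ℝ}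
    (hlo : ∀ x, Monotone fun l => lo l x) (hhi : ∀ x, Antitone fun l => hi l x)
    (hlo' : ∀ x, Monotone fun l => lo' l x) (hhi' : ∀ x, Antitone fun l => hi' l x)
    (hc1 : ∀ l t, IsClosed {x | lo l x ≤ t}) (hc2 : ∀ l t, IsClosed {x | t ≤ hi l x})
    (hc3 : ∀ l t, IsClosed {x | lo' l x ≤ t}) (hc4 : ∀ l t, IsClosed {x | t ≤ hi' l x})
    (ha : ∀ x t, (∀ l, lo l x ≤ t) → a x ≤ t) (hb : ∀ x t, (∀ l, t ≤ hi l x) → t ≤ b x)
    (ha' : ∀ x t, (∀ l, lo' l x ≤ t) → a' x ≤ t) (hb' : ∀ x t, (∀ l, t ≤ hi' l x) → t ≤ b' x)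
    {p : ℝ × ℝ} (hp : p ∉ Bx F a b a' b') :
    ∃ l₀, ∀ l ≥ l₀, ∀ x ∈ F, ¬ (lo l x ≤ p.1 ∧ p.1 ≤ hi l x ∧ lo' l x ≤ p.2 ∧ p.2 ≤ hi' l x) := by
  by_contra hcon
  push Not at hcon
  set T : ℕ → Set X := fun l =>
    F ∩ ({x | lo l x ≤ p.1} ∩ ({x | p.1 ≤ hi l x} ∩ ({x | lo' l x ≤ p.2} ∩ {x | p.2 ≤ hi' l x})))
    with hT
  have hTc : ∀ l, IsClosed (T l) := fun l =>
    hF.inter ((hc1 l _).inter ((hc2 l _).inter ((hc3 l _).inter (hc4 l _))))
  have hTa : ∀ l, T (l + 1) ⊆ T l := by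
    rintro l x ⟨h0, h1, h2, h3, h4⟩
    exact ⟨h0, le_trans (hlo x (Nat.le_succ l)) h1, le_trans h2 (hhi x (Nat.le_succ l)),
      le_trans (hlo' x (Nat.le_succ l)) h3, le_trans h4 (hhi' x (Nat.le_succ l))⟩
  have hTn : ∀ l, (T l).Nonempty := by
    intro l
    obtain ⟨l', hl', x, hx, h1, h2, h3, h4⟩ := hcon l
    have hanti : T l' ⊆ T l := by
      have := antitone_nat_of_succ_le (f := T) hTa
      exact this hl'
    exact ⟨x, hanti ⟨hx, h1, h2, h3, h4⟩⟩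
  obtain ⟨x, hx⟩ := IsCompact.nonempty_iInter_of_sequence_nonempty_isCompact_isClosed T hTa hTn
    (hTc 0).isCompact hTc
  rw [mem_iInter] at hx
  refine hp ⟨x, (hx 0).1, ha x _ fun l => (hx l).2.1, hb x _ fun l => (hx l).2.2.1,
    ha' x _ fun l => (hx l).2.2.2.1, hb' x _ fun l => (hx l).2.2.2.2⟩

end Vale.Agent.P116.KF.H597
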