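import Vale.Agent.P116.Cl.H766.Lev
import Vale.Agent.P116.KF.H597.Fub

/-!
# P116, full Koebe, block [45], row 45-E (FUB)

`ZZ K u g D` : the values `(s, s')` for which an end (point of `K ∩ D`) is in both level sets.
`isClosed_ZZ` : it is closed for compact `D`. `fubD` : Fubini. `frontier_int` : the part of the
frontier. `null45` : the limit.
-/

open MeasureTheory Set Filter Topology Metric
open scoped ENNReal

namespace Vale.Agent.P116.KF.H597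

open H906 Cl.H766

variable {K D : Set ℂ} {u g : ℂ → ℝ}

/-- the pairs of values taken at a common end in `D` -/
def ZZ (K : Set ℂ) (u g : ℂ → ℝ) (D : Set ℂ) : Set (ℝ × ℝ) :=
  {p | ∃ z ∈ K ∩ D, z ∈ Lv K u p.1 ∧ z ∈ Lv K g p.2}

theorem ZZ_mono {D' : Set ℂ} (h : D ⊆ D') : ZZ K u g D ⊆ ZZ K u g D' :=
  fun _ ⟨z, hz, h'⟩ => ⟨z, ⟨hz.1, h hz.2⟩, h'⟩

theorem isOpen_UpS_prod (hK : IsClosed K) (hu : ContinuousOn u Kᶜ) :
    IsOpen {p : ℂ × ℝ | p.1 ∈ UpS K u p.2} := by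
  rw [isOpen_iff_mem_nhds]
  rintro ⟨z, t⟩ (⟨hz, h1⟩ | ⟨hz, n, r, h1, h2⟩)
  · simp only at hz h1
    have h3 : ContinuousAt u z := hu.continuousAt (hK.isOpen_compl.mem_nhds hz)
    obtain ⟨m, hm1, hm2⟩ := exists_between h1
    have h4 : ∀ᶠ y in 𝓝 z, m < u y ∧ y ∉ K :=
      (h3.eventually (lt_mem_nhds hm2)).and (hK.isOpen_compl.mem_nhds hz)
    have h5 : ∀ᶠ s in 𝓝 t, s < m := gt_mem_nhds hm1
    filter_upwards [h4.prod_nhds h5] with p hp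
    exact Or.inl ⟨hp.1.2, hp.2.trans hp.1.1⟩
  · simp only at hz h1 h2
    obtain ⟨m, hm1, hm2⟩ := exists_between h1
    have h4 : ∀ᶠ y in 𝓝 z, y ∈ closedBall z (lr n) := closedBall_mem_nhds z (lr_pos n)
    have h5 : ∀ᶠ s in 𝓝 t, s < m := gt_mem_nhds hm1
    filter_upwards [h4.prod_nhds h5] with p hp
    have hy' : p.1 ∈ nd K n z := closedBall_subset_nd hz (mem_nd hz n) hp.1
    by_cases hyK : p.1 ∈ K
    · refine Or.inr ⟨hyK, n, r, hp.2.trans hm2, ?_⟩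
      rw [nd_eq hy']
      exact h2
    · exact Or.inl ⟨hyK, (hp.2.trans hm2).trans_le (h2 _ hy' hyK)⟩

theorem isClosed_Lv_prod (hK : IsClosed K) (hu : ContinuousOn u Kᶜ) :
    IsClosed {p : ℂ × ℝ | p.1 ∈ Lv K u p.2} := by
  have h1 := isOpen_UpS_prod hK hu
  have h2 : IsOpen {p : ℂ × ℝ | p.1 ∈ UpS K (fun z => - u z) (-p.2)} :=
    (isOpen_UpS_prod hK (u := fun z => - u z) hu.neg).preimage
      (f := fun p : ℂ × ℝ => (p.1, -p.2)) (by fun_prop)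
  have e : {p : ℂ × ℝ | p.1 ∈ Lv K u p.2} = ({p : ℂ × ℝ | p.1 ∈ UpS K u p.2} ∪
      {p : ℂ × ℝ | p.1 ∈ UpS K (fun z => - u z) (-p.2)})ᶜ := by
    ext p
    simp only [Lv, mem_compl_iff, mem_union, mem_ofPred_eq]
  rw [e]
  exact (h1.union h2).isClosed_compl

/-- **measurability** -/
theorem isClosed_ZZ (hK : IsClosed K) (hu : ContinuousOn u Kᶜ) (hg : ContinuousOn g Kᶜ)
    (hD : IsCompact (K ∩ D)) : IsClosed (ZZ K u g D) := by
  have : CompactSpace ↥(K ∩ D) := isCompact_iff_compactSpace.1 hD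
  have e : ZZ K u g D = Prod.snd '' {w : ↥(K ∩ D) × (ℝ × ℝ) |
      (w.1 : ℂ) ∈ Lv K u w.2.1 ∧ (w.1 : ℂ) ∈ Lv K g w.2.2} := by
    ext p
    constructor
    · rintro ⟨z, hz, h⟩
      exact ⟨(⟨z, hz⟩, p), h, rfl⟩
    · rintro ⟨⟨z, q⟩, h, rfl⟩
      exact ⟨z, z.2, h⟩
  rw [e]
  refine isClosedMap_snd_of_compactSpace _ ?_
  have h1 : IsClosed {w : ↥(K ∩ D) × (ℝ × ℝ) | (w.1 : ℂ) ∈ Lv K u w.2.1} :=
    (isClosed_Lv_prod hK hu).preimage
      (f := fun w : ↥(K ∩ D) × (ℝ × ℝ) => ((w.1 : ℂ), w.2.1)) (by fun_prop)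
  have h2 : IsClosed {w : ↥(K ∩ D) × (ℝ × ℝ) | (w.1 : ℂ) ∈ Lv K g w.2.2} :=
    (isClosed_Lv_prod hK hg).preimage
      (f := fun w : ↥(K ∩ D) × (ℝ × ℝ) => ((w.1 : ℂ), w.2.2)) (by fun_prop)
  exact h1.inter h2

/-- Fubini for measurable sets, bounds for almost every slice -/
theorem fub_le {Z : Set (ℝ × ℝ)} (hZ : MeasurableSet Z) {A : ℝ → ℝ≥0∞}
    (h : ∀ᵐ s : ℝ, volume {s' : ℝ | (s, s') ∈ Z} ≤ A s) : volume Z ≤ ∫⁻ s, A s := by
  rw [Measure.volume_eq_prod, Measure.prod_apply hZ]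
  exact lintegral_mono_ae h

/-- **(FUB)** the section estimate for almost every `s` gives the area -/
theorem fubD (hK : IsClosed K) (hu : ContinuousOn u Kᶜ) (hg : ContinuousOn g Kᶜ)
    (hD : IsCompact (K ∩ D)) {B : Set (ℝ × ℝ)} (hB : MeasurableSet B) {A : ℝ → ℝ≥0∞}
    (h : ∀ᵐ s : ℝ, volume {s' : ℝ | (∃ z ∈ K ∩ D, z ∈ Lv K u s ∧ z ∈ Lv K g s') ∧
      (s, s') ∉ B} ≤ A s) :
    volume (ZZ K u g D \ B) ≤ ∫⁻ s, A s :=
  fub_le ((isClosed_ZZ hK hu hg hD).measurableSet.diff hB) h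

/-- the frontier: the integral of the lengths of the slices is the area of the image -/
theorem frontier_int {Fr : Set ℂ} (hFr : IsCompact Fr) (hu : ContinuousOn u Fr)
    (hg : ContinuousOn g Fr) :
    ∫⁻ s, volume (g '' (Fr ∩ {z | u z = s})) = volume ((fun z => (u z, g z)) '' Fr) := by
  have hc : IsCompact ((fun z => (u z, g z)) '' Fr) := hFr.image_of_continuousOn (hu.prodMk hg)
  rw [Measure.volume_eq_prod, Measure.prod_apply hc.isClosed.measurableSet]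
  refine lintegral_congr fun s => ?_
  congr 1
  ext s'
  simp only [mem_image, mem_inter_iff, mem_ofPred_eq, mem_preimage, Prod.mk.injEq]
  constructor
  · rintro ⟨z, ⟨hz, h1⟩, h2⟩
    exact ⟨z, hz, h1, h2⟩
  · rintro ⟨z, hz, h1, h2⟩
    exact ⟨z, ⟨hz, h1⟩, h2⟩

theorem ae_frontier {Fr : Set ℂ} (hFr : IsCompact Fr) (hu : ContinuousOn u Fr)
    (hg : ContinuousOn g Fr) (h0 : volume ((fun z => (u z, g z)) '' Fr) = 0) :
    ∀ᵐ s : ℝ, volume (g '' (Fr ∩ {z | u z = s})) = 0 := by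
  have hc : IsCompact ((fun z => (u z, g z)) '' Fr) := hFr.image_of_continuousOn (hu.prodMk hg)
  have hm := hc.isClosed.measurableSet
  rw [Measure.volume_eq_prod, Measure.measure_prod_null hm] at h0
  filter_upwards [h0] with s hs
  refine measure_mono_null ?_ hs
  rintro s' ⟨z, ⟨hz, h1⟩, rfl⟩
  exact ⟨z, hz, by simp only [mem_ofPred_eq] at h1; rw [← h1]⟩

/-- **(FUB) with the frontier**: section estimate `≤ A s + |g (L_s ∩ frontier)|` -/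
theorem fubD' (hK : IsClosed K) (hu : ContinuousOn u Kᶜ) (hg : ContinuousOn g Kᶜ)
    (hD : IsCompact (K ∩ D)) {B : Set (ℝ × ℝ)} (hB : MeasurableSet B) {A : ℝ → ℝ≥0∞}
    {Fr : Set ℂ} (hFr : IsCompact Fr) (hFK : Fr ⊆ Kᶜ)
    (h0 : volume ((fun z => (u z, g z)) '' Fr) = 0)
    (h : ∀ᵐ s : ℝ, volume {s' : ℝ | (∃ z ∈ K ∩ D, z ∈ Lv K u s ∧ z ∈ Lv K g s') ∧
      (s, s') ∉ B} ≤ A s + volume (g '' (Fr ∩ {z | u z = s}))) :
    volume (ZZ K u g D \ B) ≤ ∫⁻ s, A s := by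
  refine fubD hK hu hg hD hB ?_
  filter_upwards [h, ae_frontier hFr (hu.mono hFK) (hg.mono hFK) h0] with s h1 h2
  rwa [h2, add_zero] at h1

/-- **the limit**: `Fn n` the first massive ends, `Dn n m ↑` exhausts the rest, `Bn n` contains the
boxes of the other massive ends -/
theorem null45 {w : Set ℂ} {NB : ℂ → Prop} {Fn : ℕ → Set ℂ} {Dn : ℕ → ℕ → Set ℂ}
    {Bn : ℕ → Set (ℝ × ℝ)} {e β : ℕ → ℝ≥0∞}
    (hDn : ∀ n, (K ∩ w) \ Fn n ⊆ ⋃ m, Dn n m) (hDm : ∀ n, Monotone (Dn n))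
    (hb : ∀ n m, volume (ZZ K u g (Dn n m) \ Bn n) ≤ e n) (hβ : ∀ n, volume (Bn n) ≤ β n)
    (he : Tendsto e atTop (𝓝 0)) (hβ0 : Tendsto β atTop (𝓝 0))
    (hF : ∀ n, volume {p : ℝ × ℝ | ∃ z ∈ (K ∩ w) ∩ Fn n, NB z ∧ z ∈ Lv K u p.1 ∧
      z ∈ Lv K g p.2} = 0) :
    volume {p : ℝ × ℝ | ∃ z ∈ K ∩ w, NB z ∧ z ∈ Lv K u p.1 ∧ z ∈ Lv K g p.2} = 0 := by
  have key : ∀ n, volume {p : ℝ × ℝ | ∃ z ∈ K ∩ w, NB z ∧ z ∈ Lv K u p.1 ∧ z ∈ Lv K g p.2} ≤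
      e n + β n := by
    intro n
    have h1 : {p : ℝ × ℝ | ∃ z ∈ K ∩ w, NB z ∧ z ∈ Lv K u p.1 ∧ z ∈ Lv K g p.2} ⊆
        {p : ℝ × ℝ | ∃ z ∈ (K ∩ w) ∩ Fn n, NB z ∧ z ∈ Lv K u p.1 ∧ z ∈ Lv K g p.2} ∪
        ⋃ m, ZZ K u g (Dn n m) := by
      rintro p ⟨z, hz, h2, h3⟩
      by_cases hzF : z ∈ Fn n
      · exact Or.inl ⟨z, ⟨hz, hzF⟩, h2, h3⟩
      · obtain ⟨m, hm⟩ := mem_iUnion.1 (hDn n ⟨hz, hzF⟩)
        exact Or.inr (mem_iUnion.2 ⟨m, z, ⟨hz.1, hm⟩, h3⟩)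
    refine (measure_mono h1).trans ((measure_union_le _ _).trans ?_)
    rw [hF n, zero_add]
    have hmono : Monotone fun m => ZZ K u g (Dn n m) := fun m m' h => ZZ_mono (hDm n h)
    rw [hmono.measure_iUnion]
    refine iSup_le fun m => ?_
    calc volume (ZZ K u g (Dn n m)) ≤ volume ((ZZ K u g (Dn n m) \ Bn n) ∪ Bn n) :=
          measure_mono (by rw [sdiff_union_self]; exact subset_union_left)
      _ ≤ volume (ZZ K u g (Dn n m) \ Bn n) + volume (Bn n) := measure_union_le _ _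
      _ ≤ e n + β n := add_le_add (hb n m) (hβ n)
  have hlim : Tendsto (fun n => e n + β n) atTop (𝓝 0) := by
    simpa using he.add hβ0
  exact le_antisymm (ge_of_tendsto' hlim key) bot_le

end Vale.Agent.P116.KF.H597
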