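import Vale.Agent.P116.KF.H597.Mass
import Vale.Agent.P116.AD.Spec

/-! # `RowEnd1` of `AD/Spec.lean` -/

open Set Filter Topology Metric

namespace Vale.Agent.P116.KF.H597

open H906 PBC Slow KB

/-- **[7] RowEnd1** -/
theorem rowEnd1 : AD.RowEnd1 := by
  intro K u hK _ _ hb z hz
  have hu : BdK K u := hb
  have hne : ∀ n, (u '' (nd K n z \ K)).Nonempty := im_ne hK hz
  refine ⟨lo_le_hi hK hu hz, fun n y hy hyK => ?_, fun ε hε => ?_, fun y hy hyz => ?_⟩
  · exact ⟨csInf_le (hu.nd n z).below (mem_image_of_mem u ⟨hy, hyK⟩),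
      le_csSup (hu.nd n z).above (mem_image_of_mem u ⟨hy, hyK⟩)⟩
  · have h1 := tendsto_atTop_ciSup (inf_mono hK hu hz) (bdd_inf hK hu hz)
    have h2 := tendsto_atTop_ciInf (sup_anti hK hu hz) (bdd_sup hK hu hz)
    have h3 := h1.eventually (lt_mem_nhds (show lo K u z - ε < ⨆ n, sInf (u '' (nd K n z \ K)) from
      sub_lt_self _ hε))
    have h4 := h2.eventually (gt_mem_nhds (show (⨅ n, sSup (u '' (nd K n z \ K))) < hi K u z + ε from
      lt_add_of_pos_right _ hε))
    obtain ⟨m, hm⟩ := eventually_atTop.1 (h3.and h4)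
    exact ⟨m, fun n hn => ⟨(hm n hn).1.le, (hm n hn).2.le⟩⟩
  · have hc : connectedComponentIn K z ∈ comps K := ⟨z, hz, rfl⟩
    have hyc : y ∈ connectedComponentIn K z := by
      rw [← hyz]
      exact mem_connectedComponentIn hy
    exact ⟨lo_congr hc hyc (mem_connectedComponentIn hz),
      hi_congr hc hyc (mem_connectedComponentIn hz)⟩

end Vale.Agent.P116.KF.H597
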