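import Vale.Agent.P116.KB.OscAPI
import Vale.Agent.P116.Cl.H766.Br

/-!
# End intervals and massive ends

`EI K u x = Icc (lo K u x) (hi K u x)`, of length `oscC K u c`, `c` the component of `x`; the ends
massive for exactly one of two functions have null joint values; the joint values at the ends
massive for both and off a large finite family have small measure.
-/

open Set Filter Topology Metric Bornology MeasureTheory

namespace Vale.Agent.P116.KF.H597

open H906 PBC Slow KB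

variable {K w : Set ℂ} {u g ρ σ : ℂ → ℝ}

/-- the lower value of `u` at `x` -/
noncomputable def lo (K : Set ℂ) (u : ℂ → ℝ) (x : ℂ) : ℝ := ⨆ n : ℕ, sInf (u '' (nd K n x \ K))

/-- the upper value of `u` at `x` -/
noncomputable def hi (K : Set ℂ) (u : ℂ → ℝ) (x : ℂ) : ℝ := ⨅ n : ℕ, sSup (u '' (nd K n x \ K))

lemma im_ne (hK : IsCompact K) {x : ℂ} (hx : x ∈ K) (n : ℕ) : (u '' (nd K n x \ K)).Nonempty := by
  obtain ⟨y, hy, hyK⟩ := exists_mem_nd_notMem hK hx n
  exact ⟨u y, y, ⟨hy, hyK⟩, rfl⟩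

lemma inf_mono (hK : IsCompact K) (hu : BdK K u) {x : ℂ} (hx : x ∈ K) :
    Monotone fun n : ℕ => sInf (u '' (nd K n x \ K)) := fun _ n hmn =>
  csInf_le_csInf (hu.nd _ x).below (im_ne hK hx n)
    (image_mono (sdiff_subset_sdiff_left (nd_anti hmn)))

lemma sup_anti (hK : IsCompact K) (hu : BdK K u) {x : ℂ} (hx : x ∈ K) :
    Antitone fun n : ℕ => sSup (u '' (nd K n x \ K)) := fun _ n hmn =>
  csSup_le_csSup (hu.nd _ x).above (im_ne hK hx n)
    (image_mono (sdiff_subset_sdiff_left (nd_anti hmn)))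

lemma inf_le_sup (hK : IsCompact K) (hu : BdK K u) {x : ℂ} (hx : x ∈ K) (m n : ℕ) :
    sInf (u '' (nd K m x \ K)) ≤ sSup (u '' (nd K n x \ K)) := by
  refine (inf_mono hK hu hx (le_max_left m n)).trans (le_trans ?_ (sup_anti hK hu hx
    (le_max_right m n)))
  exact csInf_le_csSup (im_ne hK hx _) (hu.nd _ x).below (hu.nd _ x).above

lemma bdd_inf (hK : IsCompact K) (hu : BdK K u) {x : ℂ} (hx : x ∈ K) :
    BddAbove (range fun n : ℕ => sInf (u '' (nd K n x \ K))) := by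
  refine ⟨sSup (u '' (nd K 0 x \ K)), ?_⟩
  rintro _ ⟨n, rfl⟩
  exact inf_le_sup hK hu hx n 0

lemma bdd_sup (hK : IsCompact K) (hu : BdK K u) {x : ℂ} (hx : x ∈ K) :
    BddBelow (range fun n : ℕ => sSup (u '' (nd K n x \ K))) := by
  refine ⟨sInf (u '' (nd K 0 x \ K)), ?_⟩
  rintro _ ⟨n, rfl⟩
  exact inf_le_sup hK hu hx 0 n

lemma lo_le_hi (hK : IsCompact K) (hu : BdK K u) {x : ℂ} (hx : x ∈ K) : lo K u x ≤ hi K u x :=
  ciSup_le fun m => le_ciInf fun n => inf_le_sup hK hu hx m n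

/-- the oscillation at the component of `x` is the length of the end interval -/
lemma oscC_eq (hK : IsCompact K) (hu : BdK K u) {x : ℂ} (hx : x ∈ K) :
    oscC K u (connectedComponentIn K x) = hi K u x - lo K u x := by
  have h1 := tendsto_atTop_ciSup (inf_mono hK hu hx) (bdd_inf hK hu hx)
  have h2 := tendsto_atTop_ciInf (sup_anti hK hu hx) (bdd_sup hK hu hx)
  exact tendsto_nhds_unique (tendsto_oscC_nd hu hx) (h2.sub h1)

lemma mem_UpS_iff (hK : IsCompact K) (hu : BdK K u) {x : ℂ} (hx : x ∈ K) (s : ℝ) :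
    x ∈ KF.UpS K u s ↔ s < lo K u x := by
  constructor
  · rintro (h | ⟨-, n, t, ht, hn⟩)
    · exact absurd hx h.1
    · refine (ht.trans_le ?_).trans_le (le_ciSup (bdd_inf hK hu hx) n)
      refine le_csInf (im_ne hK hx n) ?_
      rintro _ ⟨y, hy, rfl⟩
      exact hn y hy.1 hy.2
  · intro h
    obtain ⟨n, hn⟩ := exists_lt_of_lt_ciSup h
    exact Or.inr ⟨hx, n, _, hn, fun y hy hyK =>
      csInf_le (hu.nd n x).below (mem_image_of_mem u ⟨hy, hyK⟩)⟩

lemma mem_UpS_neg_iff (hK : IsCompact K) (hu : BdK K u) {x : ℂ} (hx : x ∈ K) (s : ℝ) :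
    x ∈ KF.UpS K (fun z => - u z) (-s) ↔ hi K u x < s := by
  constructor
  · rintro (h | ⟨-, n, t, ht, hn⟩)
    · exact absurd hx h.1
    · refine (ciInf_le (bdd_sup hK hu hx) n).trans_lt (lt_of_le_of_lt ?_ (show -t < s by linarith))
      refine csSup_le (im_ne hK hx n) ?_
      rintro _ ⟨y, hy, rfl⟩
      linarith [hn y hy.1 hy.2]
  · intro h
    obtain ⟨n, hn⟩ := exists_lt_of_ciInf_lt h
    refine Or.inr ⟨hx, n, _, neg_lt_neg hn, fun y hy hyK => neg_le_neg ?_⟩
    exact le_csSup (hu.nd n x).above (mem_image_of_mem u ⟨hy, hyK⟩)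

/-- **end intervals** -/
theorem EI_eq (hK : IsCompact K) (hu : BdK K u) {x : ℂ} (hx : x ∈ K) :
    EI K u x = Icc (lo K u x) (hi K u x) := by
  ext s
  rw [EI, mem_ofPred_eq, mem_UpS_iff hK hu hx, mem_UpS_neg_iff hK hu hx, not_lt, not_lt]
  rfl

theorem volume_EI (hK : IsCompact K) (hu : BdK K u) {x : ℂ} (hx : x ∈ K) :
    volume (EI K u x) = ENNReal.ofReal (oscC K u (connectedComponentIn K x)) := by
  rw [EI_eq hK hu hx, Real.volume_Icc, oscC_eq hK hu hx]

lemma measurableSet_EI (hK : IsCompact K) (hu : BdK K u) {x : ℂ} (hx : x ∈ K) :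
    MeasurableSet (EI K u x) := by
  rw [EI_eq hK hu hx]
  exact measurableSet_Icc

lemma nd_congr {c : Set ℂ} (hc : c ∈ comps K) {x y : ℂ} (hx : x ∈ c) (hy : y ∈ c) (n : ℕ) :
    nd K n x = nd K n y := by rw [← ndC_of hc hx, ndC_of hc hy]

lemma lo_congr {c : Set ℂ} (hc : c ∈ comps K) {x y : ℂ} (hx : x ∈ c) (hy : y ∈ c) :
    lo K u x = lo K u y := by
  unfold lo
  simp only [nd_congr hc hx hy]

lemma hi_congr {c : Set ℂ} (hc : c ∈ comps K) {x y : ℂ} (hx : x ∈ c) (hy : y ∈ c) :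
    hi K u x = hi K u y := by
  unfold hi
  simp only [nd_congr hc hx hy]

lemma EI_congr (hK : IsCompact K) (hu : BdK K u) {c : Set ℂ} (hc : c ∈ comps K) {x y : ℂ}
    (hx : x ∈ c) (hy : y ∈ c) : EI K u x = EI K u y := by
  rw [EI_eq hK hu (comps_subset hc hx), EI_eq hK hu (comps_subset hc hy), lo_congr hc hx hy,
    hi_congr hc hx hy]

/-- the components inside `w` which are massive for `u` -/
def Msv (K w : Set ℂ) (u : ℂ → ℝ) : Set (Set ℂ) := {c | c ∈ comps K ∧ c ⊆ w ∧ 0 < oscC K u c}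

/-- **(J4 i)** the massive components are countable -/
theorem countable_Msv (hu : Hon K w u ρ) : (Msv K w u).Countable := by
  have h := hu.sum'.countable_support
  have h2 : Msv K w u ⊆ Subtype.val '' (Function.support fun c : comps K => oc K w u c) := by
    rintro c ⟨hc, hcw, h0⟩
    refine ⟨⟨c, hc⟩, ?_, rfl⟩
    rw [Function.mem_support]
    change oc K w u c ≠ 0
    rw [oc_of_sub hcw]
    positivity
  exact (h.image _).mono h2

open Classical in
/-- **(J4 ii)** a finite family of massive components with small remaining oscillation -/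
theorem exists_fin (hu : Hon K w u ρ) {ε : ℝ} (hε : 0 < ε) : ∃ F : Finset (Set ℂ),
    (∀ c ∈ F, c ∈ Msv K w u) ∧ (∑' c : comps K, if (c : Set ℂ) ∈ F then 0 else oc K w u c) ≤ ε := by
  have hs := hu.sum'
  have h1 := tendsto_order.1 (tendsto_tsum_compl_atTop_zero fun c : comps K => oc K w u c)
  obtain ⟨F₀, hF₀⟩ := (h1.2 ε hε).exists
  refine ⟨(F₀.filter fun c : comps K => (c : Set ℂ) ∈ Msv K w u).image Subtype.val, ?_, ?_⟩
  · intro c hc
    rw [Finset.mem_image] at hc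
    obtain ⟨d, hd, rfl⟩ := hc
    exact (Finset.mem_filter.1 hd).2
  · refine le_trans (le_of_eq ?_) hF₀.le
    have h2 := tsum_subtype {c : comps K | c ∉ F₀} (fun c : comps K => oc K w u c)
    refine Eq.trans ?_ h2.symm
    refine tsum_congr fun c => ?_
    rw [indicator_apply]
    by_cases hc : c ∈ F₀
    · rw [if_neg (show ¬ c ∈ {c : comps K | c ∉ F₀} from fun h => h hc)]
      split_ifs with h3
      · rfl
      · by_cases hcw : (c : Set ℂ) ⊆ w
        · rw [oc_of_sub hcw]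
          have h4 : ¬ 0 < oscC K u c := by
            intro h5
            exact h3 (Finset.mem_image.2 ⟨c, Finset.mem_filter.2 ⟨hc, c.2, hcw, h5⟩, rfl⟩)
          have h6 := oscC_nonneg hu.bdK c.2
          have h7 : oscC K u c = 0 := le_antisymm (not_lt.1 h4) h6
          rw [h7]
          norm_num
        · exact oc_of_not_sub hcw
    · rw [if_pos (show c ∈ {c : comps K | c ∉ F₀} from hc)]
      rw [if_neg]
      intro h3
      rw [Finset.mem_image] at h3
      obtain ⟨d, hd, hdc⟩ := h3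
      exact hc (Subtype.ext hdc ▸ (Finset.mem_filter.1 hd).1)

/-- joint values at the ends whose component is in `M` -/
def Bxs (K : Set ℂ) (u g : ℂ → ℝ) (M : Set (Set ℂ)) : Set (ℝ × ℝ) :=
  {q | ∃ x ∈ K, connectedComponentIn K x ∈ M ∧ q.1 ∈ EI K u x ∧ q.2 ∈ EI K g x}

/-- a point of a component -/
noncomputable def pt (c : comps K) : ℂ := (comps_nonempty c.2).some

lemma pt_mem (c : comps K) : pt c ∈ (c : Set ℂ) := (comps_nonempty c.2).some_mem

lemma pt_mem_K (c : comps K) : pt c ∈ K := comps_subset c.2 (pt_mem c)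

lemma comp_pt (c : comps K) : connectedComponentIn K (pt c) = c := (comps_eq c.2 (pt_mem c)).symm

lemma Bxs_eq (hK : IsCompact K) (hu : BdK K u) (hg : BdK K g) (M : Set (Set ℂ)) :
    Bxs K u g M = ⋃ c ∈ {c : comps K | (c : Set ℂ) ∈ M}, EI K u (pt c) ×ˢ EI K g (pt c) := by
  ext q
  simp only [mem_iUnion, mem_ofPred_eq, exists_prop]
  constructor
  · rintro ⟨x, hx, hM, h1, h2⟩
    have hc : connectedComponentIn K x ∈ comps K := ⟨x, hx, rfl⟩
    refine ⟨⟨_, hc⟩, hM, ?_⟩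
    have hxc := mem_connectedComponentIn hx
    have hp := pt_mem (⟨_, hc⟩ : comps K)
    refine ⟨?_, ?_⟩
    · rw [← EI_congr hK hu hc hxc hp]
      exact h1
    · rw [← EI_congr hK hg hc hxc hp]
      exact h2
  · rintro ⟨c, hM, h1, h2⟩
    refine ⟨pt c, pt_mem_K c, ?_, h1, h2⟩
    rw [comp_pt]
    exact hM

theorem measurableSet_Bxs (hK : IsCompact K) (hu : BdK K u) (hg : BdK K g) {M : Set (Set ℂ)}
    (hM : M.Countable) : MeasurableSet (Bxs K u g M) := by
  rw [Bxs_eq hK hu hg]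
  refine MeasurableSet.biUnion (hM.preimage Subtype.val_injective) fun c _ => ?_
  exact (measurableSet_EI hK hu (pt_mem_K c)).prod (measurableSet_EI hK hg (pt_mem_K c))

/-- the measure of the joint values at countably many ends -/
theorem volume_Bxs_le (hK : IsCompact K) (hu : BdK K u) (hg : BdK K g) {M : Set (Set ℂ)}
    (hM : M.Countable) : volume (Bxs K u g M) ≤ ∑' c : {c : comps K | (c : Set ℂ) ∈ M},
      ENNReal.ofReal (oscC K u c) * ENNReal.ofReal (oscC K g c) := by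
  rw [Bxs_eq hK hu hg]
  have hM' : {c : comps K | (c : Set ℂ) ∈ M}.Countable := hM.preimage Subtype.val_injective
  have := hM'.to_subtype
  rw [biUnion_eq_iUnion]
  refine (measure_iUnion_le _).trans (ENNReal.tsum_le_tsum fun c => ?_)
  rw [Measure.volume_eq_prod, Measure.prod_prod, volume_EI hK hu (pt_mem_K _),
    volume_EI hK hg (pt_mem_K _), comp_pt]

/-- ends where `u` (or `g`) is not massive have null joint values, if they are countably many
ends -/
theorem volume_Bxs_zero (hK : IsCompact K) (hu : BdK K u) (hg : BdK K g) {M : Set (Set ℂ)}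
    (hM : M.Countable) (h0 : ∀ c ∈ M, c ∈ comps K → oscC K u c = 0 ∨ oscC K g c = 0) :
    volume (Bxs K u g M) = 0 := by
  refine le_antisymm ((volume_Bxs_le hK hu hg hM).trans ?_) bot_le
  refine (ENNReal.tsum_eq_zero.2 fun c => ?_).le
  rcases h0 _ c.2 c.1.2 with h | h <;> simp [h]

/-- **(J4 iv)** the ends inside `w` massive for exactly one of the two functions -/
theorem volume_single (hK : IsCompact K) (hu : Hon K w u ρ) (hg : Hon K w g σ) :
    volume {q : ℝ × ℝ | ∃ x ∈ K, connectedComponentIn K x ⊆ w ∧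
      (0 < oscC K u (connectedComponentIn K x) ∨ 0 < oscC K g (connectedComponentIn K x)) ∧
      ¬ (0 < oscC K u (connectedComponentIn K x) ∧ 0 < oscC K g (connectedComponentIn K x)) ∧
      q.1 ∈ EI K u x ∧ q.2 ∈ EI K g x} = 0 := by
  have h1 := volume_Bxs_zero hK hu.bdK hg.bdK
    (M := (Msv K w u ∪ Msv K w g) \ (Msv K w u ∩ Msv K w g))
    (((countable_Msv hu).union (countable_Msv hg)).mono sdiff_subset) (by
      rintro c ⟨h1, h2⟩ hc
      by_contra hcon
      rw [not_or] at hcon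
      have h3 : 0 < oscC K u c := lt_of_le_of_ne (oscC_nonneg hu.bdK hc) (Ne.symm hcon.1)
      have h4 : 0 < oscC K g c := lt_of_le_of_ne (oscC_nonneg hg.bdK hc) (Ne.symm hcon.2)
      have hcw : c ⊆ w := by
        rcases h1 with h | h
        · exact h.2.1
        · exact h.2.1
      exact h2 ⟨⟨hc, hcw, h3⟩, ⟨hc, hcw, h4⟩⟩)
  refine measure_mono_null ?_ h1
  rintro q ⟨x, hx, hxw, h2, h3, h4, h5⟩
  have hc : connectedComponentIn K x ∈ comps K := ⟨x, hx, rfl⟩
  refine ⟨x, hx, ⟨?_, ?_⟩, h4, h5⟩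
  · rcases h2 with h | h
    · exact Or.inl ⟨hc, hxw, h⟩
    · exact Or.inr ⟨hc, hxw, h⟩
  · rintro ⟨h6, h7⟩
    exact h3 ⟨h6.2.2, h7.2.2⟩

open Classical in
/-- the boxes of countably many ends inside `w`, off `F` -/
theorem volume_boxes_le (hK : IsCompact K) (hu : Hon K w u ρ) (hg : Hon K w g σ)
    {F M : Set (Set ℂ)} (hM : M.Countable) (hMF : ∀ c ∈ M, c ∈ comps K → c ⊆ w ∧ c ∉ F)
    {ε : ℝ} (hF : (∑' c : comps K, if (c : Set ℂ) ∈ F then 0 else oc K w u c) ≤ ε) :
    volume (Bxs K u g M) ≤ ENNReal.ofReal (Real.sqrt ε * Real.sqrt (Eo K w g)) := by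
  refine (volume_Bxs_le hK hu.bdK hg.bdK hM).trans ?_
  rw [ENNReal.tsum_eq_iSup_sum]
  refine iSup_le fun J => ?_
  have e1 : ∀ c ∈ J, ENNReal.ofReal (oscC K u c) * ENNReal.ofReal (oscC K g c) =
      ENNReal.ofReal (oscC K u c * oscC K g c) := fun c _ =>
    (ENNReal.ofReal_mul (oscC_nonneg hu.bdK c.1.2)).symm
  rw [Finset.sum_congr rfl e1, ← ENNReal.ofReal_sum_of_nonneg (fun c _ =>
    mul_nonneg (oscC_nonneg hu.bdK c.1.2) (oscC_nonneg hg.bdK c.1.2))]
  refine ENNReal.ofReal_le_ofReal ?_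
  refine (Real.sum_mul_le_sqrt_mul_sqrt J (fun c => oscC K u c) fun c => oscC K g c).trans ?_
  have hs1 : Summable fun c : comps K => if (c : Set ℂ) ∈ F then 0 else oc K w u c := by
    refine Summable.of_nonneg_of_le (fun c => ?_) (fun c => ?_) hu.sum'
    · split_ifs
      · exact le_rfl
      · exact oc_nonneg K w u c
    · split_ifs
      · exact oc_nonneg K w u c
      · exact le_rfl
  gcongr
  · refine le_trans ?_ hF
    have h1 : ∑ c ∈ J, oscC K u c ^ 2 = ∑ c ∈ J.map (Function.Embedding.subtype _),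
        (if (c : Set ℂ) ∈ F then 0 else oc K w u c) := by
      rw [Finset.sum_map]
      refine Finset.sum_congr rfl fun c _ => ?_
      have hc := hMF _ c.2 c.1.2
      change oscC K u c ^ 2 = if ((c : comps K) : Set ℂ) ∈ F then 0 else oc K w u (c : comps K)
      rw [if_neg hc.2, oc_of_sub hc.1]
    rw [h1]
    refine hs1.sum_le_tsum _ fun c _ => ?_
    split_ifs
    · exact le_rfl
    · exact oc_nonneg K w u c
  · have h1 : ∑ c ∈ J, oscC K g c ^ 2 = ∑ c ∈ J.map (Function.Embedding.subtype _),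
        oc K w g c := by
      rw [Finset.sum_map]
      refine Finset.sum_congr rfl fun c _ => ?_
      have hc := hMF _ c.2 c.1.2
      change oscC K g c ^ 2 = oc K w g (c : comps K)
      rw [oc_of_sub hc.1]
    rw [h1]
    exact hg.sum'.sum_le_tsum _ fun c _ => oc_nonneg K w g c

open Classical in
/-- **(J4 iii)** the boxes of the ends massive for both, off `F` -/
theorem volume_boxes (hK : IsCompact K) (hu : Hon K w u ρ) (hg : Hon K w g σ) (F : Finset (Set ℂ))
    {ε : ℝ} (hF : (∑' c : comps K, if (c : Set ℂ) ∈ F then 0 else oc K w u c) ≤ ε) :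
    MeasurableSet (Bxs K u g ((Msv K w u ∩ Msv K w g) \ F)) ∧
    volume (Bxs K u g ((Msv K w u ∩ Msv K w g) \ F)) ≤
      ENNReal.ofReal (Real.sqrt ε * Real.sqrt (Eo K w g)) := by
  have hM : ((Msv K w u ∩ Msv K w g) \ (F : Set (Set ℂ))).Countable :=
    (countable_Msv hu).mono (sdiff_subset.trans inter_subset_left)
  refine ⟨measurableSet_Bxs hK hu.bdK hg.bdK hM, volume_boxes_le hK hu hg hM
    (F := (F : Set (Set ℂ))) (fun c hc _ => ⟨hc.1.1.2.1, hc.2⟩) ?_⟩
  simpa using hF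

/-! ### the forms used in the join -/

lemma comp_sub_nd {x₀ : ℂ} {n : ℕ} {x : ℂ} (hx : x ∈ K) (hxw : x ∈ nd K n x₀) :
    connectedComponentIn K x ⊆ nd K n x₀ := by
  have h := comp_subset_nd (K := K) (p := connectedComponentIn K x) ⟨x, hx, rfl⟩
    (mem_connectedComponentIn hx) n
  rwa [nd_eq hxw] at h

open Classical in
/-- **(J4b)** -/
theorem j4b (hK : IsCompact K) {x₀ : ℂ} {n : ℕ} (hu : Hon K (nd K n x₀) u ρ)
    (hg : Hon K (nd K n x₀) g σ) (s : Finset (comps K)) {T : ℝ} (hT : 0 ≤ T)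
    (hs : (∑' c : comps K, if c ∈ s then 0 else oc K (nd K n x₀) u c) ≤ T ^ 2) :
    MeasurableSet {q : ℝ × ℝ | ∃ x ∈ K, x ∈ nd K n x₀ ∧
      (∀ c ∈ s, (c : Set ℂ) ≠ connectedComponentIn K x) ∧
      0 < oscC K g (connectedComponentIn K x) ∧ q.1 ∈ EI K u x ∧ q.2 ∈ EI K g x} ∧
    volume {q : ℝ × ℝ | ∃ x ∈ K, x ∈ nd K n x₀ ∧
      (∀ c ∈ s, (c : Set ℂ) ≠ connectedComponentIn K x) ∧
      0 < oscC K g (connectedComponentIn K x) ∧ q.1 ∈ EI K u x ∧ q.2 ∈ EI K g x} ≤
      ENNReal.ofReal (T * Real.sqrt (Eo K (nd K n x₀) g)) := by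
  set M : Set (Set ℂ) := {c | c ∈ Msv K (nd K n x₀) g ∧ ∀ d ∈ s, (d : Set ℂ) ≠ c} with hM
  have hMc : M.Countable := (countable_Msv hg).mono fun c hc => hc.1
  have heq : {q : ℝ × ℝ | ∃ x ∈ K, x ∈ nd K n x₀ ∧
      (∀ c ∈ s, (c : Set ℂ) ≠ connectedComponentIn K x) ∧
      0 < oscC K g (connectedComponentIn K x) ∧ q.1 ∈ EI K u x ∧ q.2 ∈ EI K g x} =
      Bxs K u g M := by
    ext q
    constructor
    · rintro ⟨x, hx, hxw, h1, h2, h3, h4⟩
      exact ⟨x, hx, ⟨⟨⟨x, hx, rfl⟩, comp_sub_nd hx hxw, h2⟩, h1⟩, h3, h4⟩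
    · rintro ⟨x, hx, ⟨⟨h1, h2, h3⟩, h4⟩, h5, h6⟩
      exact ⟨x, hx, h2 (mem_connectedComponentIn hx), h4, h3, h5, h6⟩
  rw [heq]
  refine ⟨measurableSet_Bxs hK hu.bdK hg.bdK hMc, ?_⟩
  have h1 := volume_boxes_le hK hu hg (F := {c | ∃ d ∈ s, (d : Set ℂ) = c}) (M := M) hMc
    (fun c hc _ => ⟨hc.1.2.1, by
      rintro ⟨d, hd, hdc⟩
      exact hc.2 d hd hdc⟩) (ε := T ^ 2) (by
      refine le_trans (le_of_eq (tsum_congr fun c => ?_)) hs
      have h2 : ((c : Set ℂ) ∈ {c : Set ℂ | ∃ d ∈ s, (d : Set ℂ) = c}) ↔ c ∈ s := by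
        constructor
        · rintro ⟨d, hd, hdc⟩
          rwa [← Subtype.ext hdc]
        · exact fun h => ⟨c, h, rfl⟩
      by_cases h3 : c ∈ s
      · rw [if_pos h3, if_pos (h2.2 h3)]
      · rw [if_neg h3, if_neg (fun h => h3 (h2.1 h))])
  rwa [Real.sqrt_sq hT] at h1

/-- **(J4c)** -/
theorem j4c (hK : IsCompact K) (hu : BdK K u) (hg : BdK K g) (s : Finset (comps K)) :
    volume {q : ℝ × ℝ | ∃ x ∈ K, x ∈ w ∧ (∃ c ∈ s, (c : Set ℂ) = connectedComponentIn K x) ∧
      ¬ (0 < oscC K u (connectedComponentIn K x) ∧ 0 < oscC K g (connectedComponentIn K x)) ∧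
      q.1 ∈ EI K u x ∧ q.2 ∈ EI K g x} = 0 := by
  have h1 := volume_Bxs_zero hK hu hg
    (M := {c | (∃ d ∈ s, (d : Set ℂ) = c) ∧ ¬ (0 < oscC K u c ∧ 0 < oscC K g c)})
    ((s.countable_toSet.image Subtype.val).mono (by
      rintro c ⟨⟨d, hd, hdc⟩, -⟩
      exact ⟨d, hd, hdc⟩)) (by
      rintro c ⟨-, h2⟩ hc
      by_contra hcon
      rw [not_or] at hcon
      exact h2 ⟨lt_of_le_of_ne (oscC_nonneg hu hc) (Ne.symm hcon.1),
        lt_of_le_of_ne (oscC_nonneg hg hc) (Ne.symm hcon.2)⟩)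
  refine measure_mono_null ?_ h1
  rintro q ⟨x, hx, -, h2, h3, h4, h5⟩
  exact ⟨x, hx, ⟨h2, h3⟩, h4, h5⟩

/-- **(J3')** -/
theorem j3' (hK : IsCompact K) (hg : BdK K g) {x : ℂ} (hx : x ∈ K)
    (h : ¬ 0 < oscC K g (connectedComponentIn K x)) : Cl.H766.osc0 K g x := by
  rw [Cl.H766.osc0_iff hK hg hx]
  exact le_antisymm (not_lt.1 h) (oscC_nonneg hg ⟨x, hx, rfl⟩)

open Classical in
/-- **(J4)** for every `ε` a finite family `F` of components massive for `u` inside `w`, with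
remaining oscillation at most `ε`, such that the boxes of the other ends massive for both have
measure at most `ε` -/
theorem exists_boxes (hK : IsCompact K) (hu : Hon K w u ρ) (hg : Hon K w g σ) {ε : ℝ}
    (hε : 0 < ε) : ∃ F : Finset (Set ℂ), (∀ c ∈ F, c ∈ Msv K w u) ∧
      (∑' c : comps K, if (c : Set ℂ) ∈ F then 0 else oc K w u c) ≤ ε ∧
      MeasurableSet (Bxs K u g ((Msv K w u ∩ Msv K w g) \ F)) ∧
      volume (Bxs K u g ((Msv K w u ∩ Msv K w g) \ F)) ≤ ENNReal.ofReal ε := by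
  set B := Real.sqrt (Eo K w g) with hB
  have hB0 : 0 ≤ B := Real.sqrt_nonneg _
  have hpos : 0 < min ε ((ε / (B + 1)) ^ 2) := lt_min hε (by positivity)
  obtain ⟨F, hF, hF2⟩ := exists_fin hu hpos
  obtain ⟨h1, h2⟩ := volume_boxes hK hu hg F hF2
  refine ⟨F, hF, hF2.trans (min_le_left _ _), h1, h2.trans (ENNReal.ofReal_le_ofReal ?_)⟩
  have h3 : Real.sqrt (min ε ((ε / (B + 1)) ^ 2)) ≤ ε / (B + 1) := by
    refine (Real.sqrt_le_sqrt (min_le_right _ _)).trans (le_of_eq ?_)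
    exact Real.sqrt_sq (by positivity)
  refine (mul_le_mul_of_nonneg_right h3 hB0).trans ?_
  rw [div_mul_eq_mul_div, div_le_iff₀ (by positivity)]
  nlinarith

end Vale.Agent.P116.KF.H597
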